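import Vale.Agent.P146.Tail.Guerra.Step

/-!
Steps with a common exponent, and the inequality for the time derivative that they preserve.
-/

noncomputable section

open MeasureTheory ProbabilityTheory Filter Topology Set
open scoped BigOperators

namespace Vale.Agent.P146.Tail.Guerra

open Vale.Agent.P157.Parisi.Full.Deriv (J Inc)

variable {ι S : Type*} [Fintype ι] [DecidableEq ι] [Fintype S]

/-- The gradient is the mean of the vectors `c` under a probability. -/
structure Grad (c : S → ι → ℝ) (P : ι → ℝ → (ι → ℝ) → ℝ) (w : S → ℝ → (ι → ℝ) → ℝ) : Prop where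
  cont : ∀ σ, Continuous (Function.uncurry (w σ))
  nonneg : ∀ σ t y, 0 ≤ w σ t y
  sum_one : ∀ t y, ∑ σ, w σ t y = 1
  eq : ∀ e t y, P e t y = ∑ σ, w σ t y * c σ e

lemma Grad.le_one {c : S → ι → ℝ} {P : ι → ℝ → (ι → ℝ) → ℝ} {w : S → ℝ → (ι → ℝ) → ℝ}
    (h : Grad c P w) (σ : S) (t : ℝ) (y : ι → ℝ) : |w σ t y| ≤ 1 := by
  rw [abs_of_nonneg (h.nonneg σ t y), ← h.sum_one t y]
  exact Finset.single_le_sum (fun τ _ => h.nonneg τ t y) (Finset.mem_univ σ)

/-- The derivative of the time, corrected by the rates `γ` of the outer steps, is at most `K`. -/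
def St (c : S → ι → ℝ) (F : ℝ → (ι → ℝ) → ℝ) (M : ℝ) (γ : ι → ℝ) (K : ℝ) : Prop :=
  ∃ L P Q D w, VFam L F P Q D ∧ Grad c P w ∧
    ∀ t ∈ J, ∀ y, D t y + 1 / 2 * ∑ e, γ e * (Q e t y + M * P e t y ^ 2) ≤ K

variable {c : S → ι → ℝ} {F : ℝ → (ι → ℝ) → ℝ} {L m d M K : ℝ} {δ : ℝ → ℝ} {γ : ι → ℝ}
  {P Q : ι → ℝ → (ι → ℝ) → ℝ} {D : ℝ → (ι → ℝ) → ℝ} {w : S → ℝ → (ι → ℝ) → ℝ}

lemma VFam.vtl_sum (hF : VFam L F P Q D) (hm : 0 ≤ m) (hδ : Continuous δ) (a : ι) (t : ℝ)
    (y : ι → ℝ) {κ : Type*} [DecidableEq κ] (s : Finset κ) (co : κ → ℝ)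
    (u : κ → ℝ → (ι → ℝ) → ℝ) {B : ℝ} (hu : ∀ k, Continuous (u k t))
    (hb : ∀ k z, |u k t z| ≤ B) :
    vtl m δ a F (fun r z => ∑ k ∈ s, co k * u k r z) t y =
      ∑ k ∈ s, co k * vtl m δ a F (u k) t y := by
  induction s using Finset.induction_on with
  | empty => simpa using vtl_const hF hm hδ a t y 0
  | @insert k s hk ih =>
    have e : (fun r z => ∑ j ∈ insert k s, co j * u j r z) =
        fun r z => (∑ j ∈ s, co j * u j r z) + co k * u k r z := by
      funext r z; rw [Finset.sum_insert hk, add_comm]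
    rw [e, Finset.sum_insert hk, hF.vtl_add hm hδ a t y
      (u := fun r z => ∑ j ∈ s, co j * u j r z) (B := ∑ j ∈ s, |co j| * B) (v := u k) (B' := B)
      (continuous_finsetSum _ fun j _ => (hu j).const_mul (co j)) ?_ (hu k) (hb k), ih, add_comm]
    intro z
    refine (Finset.abs_sum_le_sum_abs _ _).trans (Finset.sum_le_sum fun j _ => ?_)
    rw [abs_mul]
    exact mul_le_mul_of_nonneg_left (hb j z) (abs_nonneg _)

lemma Grad.step (hF : VFam L F P Q D) (hg : Grad c P w) (hm : 0 ≤ m) (hδ : Continuous δ) (a : ι) :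
    Grad c (fun e => vtl m δ a F (P e)) fun σ => vtl m δ a F (w σ) := by
  have hwc := fun σ (t : ℝ) => (hg.cont σ).uncurry_left t
  refine ⟨fun σ => hF.continuous_vtl hm hδ a (hg.cont σ) (hg.le_one σ), fun σ t y => ?_,
    fun t y => ?_, fun e t y => ?_⟩
  · have := hF.vtl_mono hm hδ a t y (u := fun _ _ => (0 : ℝ)) (v := w σ) (B := 0) (B' := 1)
      continuous_const (by simp) (hwc σ t) (hg.le_one σ t) (hg.nonneg σ t)
    rwa [vtl_const hF hm hδ a t y 0] at this
  · classical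
    have h := hF.vtl_sum hm hδ a t y Finset.univ (fun _ => (1 : ℝ)) w (fun σ => hwc σ t)
      fun σ => hg.le_one σ t
    simp only [one_mul, hg.sum_one] at h
    rw [← h, vtl_const hF hm hδ a t y 1]
  · classical
    have h := hF.vtl_sum hm hδ a t y Finset.univ (fun σ => c σ e) w (fun σ => hwc σ t)
      fun σ => hg.le_one σ t
    have e1 : P e = fun r z => ∑ σ, c σ e * w σ r z := by
      funext r z; rw [hg.eq]; exact Finset.sum_congr rfl fun σ _ => mul_comm _ _
    show vtl m δ a F (P e) t y = _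
    rw [e1, h]
    exact Finset.sum_congr rfl fun σ _ => mul_comm _ _

/-- One step at exponent `m`. -/
theorem St.vstep (hm : 0 < m) (hi : Inc δ d) (a : ι)
    (h : St c F m (γ + Pi.single a d) K) : St c (Guerra.vstep m δ a F) m γ K := by
  obtain ⟨L, P, Q, D, w, hF, hg, hb⟩ := h
  have hm0 := hm.le
  obtain ⟨L', hF'⟩ := hF.step hm hi a
  refine ⟨L', _, _, _, _, hF', hg.step hF hm0 hi.cont a, fun t ht y => ?_⟩
  set R : ι → ℝ → (ι → ℝ) → ℝ := fun e r z => Q e r z + m * P e r z ^ 2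
  have hL := hF.nn
  have hRc : ∀ e, Continuous (R e t) := fun e =>
    ((hF.c2 e).uncurry_left t).add (continuous_const.mul (((hF.c1 e).uncurry_left t).pow 2))
  have hRb : ∀ e z, |R e t z| ≤ L + m * L ^ 2 := fun e z => by
    refine (abs_add_le _ _).trans (add_le_add (hF.b2 e t z) ?_)
    rw [abs_mul, abs_of_pos hm, abs_pow]
    exact mul_le_mul_of_nonneg_left (pow_le_pow_left₀ (abs_nonneg _) (hF.b1 e t z) 2) hm0
  have hDc : Continuous (D t) :=
    hF.cD.comp_continuous (continuous_const.prodMk continuous_id) fun z => ⟨ht, mem_univ z⟩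
  have hA : Continuous fun z => D t z + d / 2 * R a t z :=
    hDc.add (continuous_const.mul (hRc a))
  have hAb : ∀ z, |D t z + d / 2 * R a t z| ≤ L + |d / 2| * (L + m * L ^ 2) := fun z =>
    (abs_add_le _ _).trans (add_le_add (hF.bD t ht z)
      ((abs_mul _ _).trans_le (mul_le_mul_of_nonneg_left (hRb a z) (abs_nonneg _))))
  have hSb : ∀ z, |∑ e, γ e * R e t z| ≤ ∑ e, |γ e| * (L + m * L ^ 2) := fun z =>
    (Finset.abs_sum_le_sum_abs _ _).trans (Finset.sum_le_sum fun e _ =>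
      (abs_mul _ _).trans_le (mul_le_mul_of_nonneg_left (hRb e z) (abs_nonneg _)))
  have hSc : Continuous fun z => ∑ e, γ e * R e t z :=
    continuous_finsetSum _ fun e _ => (hRc e).const_mul (γ e)
  have hle : ∀ z, (D t z + d / 2 * R a t z) + 1 / 2 * ∑ e, γ e * R e t z ≤ K := fun z => by
    have hz := hb t ht z
    have e : ∑ e, (γ + Pi.single a d : ι → ℝ) e * (Q e t z + m * P e t z ^ 2) =
        ∑ e, γ e * R e t z + d * R a t z := by
      simp only [Pi.add_apply, add_mul, Finset.sum_add_distrib, R]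
      congr 1
      rw [Finset.sum_eq_single a (fun e _ he => by simp [Pi.single_eq_of_ne he])
        (fun h => absurd (Finset.mem_univ a) h), Pi.single_eq_same]
    rw [e] at hz
    linarith
  have e1 : ∀ e, vQ m δ a F P Q e t y + m * vtl m δ a F (P e) t y ^ 2 = vtl m δ a F (R e) t y :=
    fun e => by simp only [vQ, R]; ring
  simp only [e1]
  rw [← hF.vtl_sum hm0 hi.cont a t y Finset.univ γ R hRc hRb]
  have h2 := hF.vtl_add hm0 hi.cont a t y (u := fun r z => D r z + d / 2 * R a r z)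
    (v := fun r z => ∑ e, γ e * R e r z) hA hAb hSc hSb (1 / 2)
  show vtl m δ a F (fun r z => D r z + d / 2 * R a r z) t y + _ ≤ K
  rw [← h2]
  refine (hF.vtl_mono hm0 hi.cont a t y (v := fun _ _ => K) (B := (L + |d / 2| * (L + m * L ^ 2)) +
    1 / 2 * ∑ e, |γ e| * (L + m * L ^ 2)) (B' := |K|) (hA.add (continuous_const.mul hSc))
    (fun z => ?_) continuous_const (fun _ => le_rfl) hle).trans (vtl_const hF hm0 hi.cont a t y K).le
  refine (abs_add_le _ _).trans (add_le_add (hAb z) ?_)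
  rw [abs_mul, abs_of_pos (show (0 : ℝ) < 1 / 2 by norm_num)]
  exact mul_le_mul_of_nonneg_left (hSb z) (by norm_num)

/-- Steps at one exponent in the coordinates of a list. -/
def vlevel (m : ℝ) (δ : ℝ → ℝ) : List ι → (ℝ → (ι → ℝ) → ℝ) → ℝ → (ι → ℝ) → ℝ
  | [], F => F
  | a :: l, F => Guerra.vstep m δ a (vlevel m δ l F)

/-- A level at exponent `m`. -/
theorem St.vlevel (hm : 0 < m) (hi : Inc δ d) : ∀ (l : List ι) (γ : ι → ℝ), l.Nodup →
    St c F m (γ + fun e => if e ∈ l then d else 0) K → St c (Guerra.vlevel m δ l F) m γ K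
  | [], γ, _, h => by
    have e : (γ + fun e => if e ∈ ([] : List ι) then d else 0) = γ := by funext e; simp
    rwa [e] at h
  | a :: l, γ, hl, h => by
    obtain ⟨ha, hl'⟩ := List.nodup_cons.1 hl
    refine St.vstep hm hi a (St.vlevel hm hi l _ hl' ?_)
    have e : (γ + fun e => if e ∈ a :: l then d else 0) =
        γ + Pi.single a d + fun e => if e ∈ l then d else 0 := by
      funext e
      rcases eq_or_ne e a with rfl | he
      · simp [ha]
      · simp [he, Pi.single_eq_of_ne he]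
    rwa [e] at h

/-- Lowering the exponent. -/
theorem St.weaken {B : ℝ} (hM : M ≤ m)
    (hB : ∀ p : S → ℝ, (∀ σ, 0 ≤ p σ) → ∑ σ, p σ = 1 → -B ≤ ∑ e, γ e * (∑ σ, p σ * c σ e) ^ 2)
    (h : St c F m γ K) : St c F M γ (K + (m - M) / 2 * B) := by
  obtain ⟨L, P, Q, D, w, hF, hg, hb⟩ := h
  refine ⟨L, P, Q, D, w, hF, hg, fun t ht y => ?_⟩
  have h1 := hb t ht y
  have h2 := hB (fun σ => w σ t y) (fun σ => hg.nonneg σ t y) (hg.sum_one t y)
  simp only [← hg.eq] at h2
  have h3 : ∑ e, γ e * (Q e t y + M * P e t y ^ 2) =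
      ∑ e, γ e * (Q e t y + m * P e t y ^ 2) - (m - M) * ∑ e, γ e * P e t y ^ 2 := by
    rw [Finset.mul_sum, ← Finset.sum_sub_distrib]
    exact Finset.sum_congr rfl fun e _ => by ring
  rw [h3]
  have := mul_le_mul_of_nonneg_left h2 (sub_nonneg.2 hM)
  linarith

/-- The terminal function `log ∑ exp`. -/
def leaf (c : S → ι → ℝ) (_t : ℝ) (y : ι → ℝ) : ℝ :=
  Real.log (∑ σ, Real.exp (∑ e, c σ e * y e))

/-- Its weights. -/
def leafW (c : S → ι → ℝ) (σ : S) (_t : ℝ) (y : ι → ℝ) : ℝ :=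
  Real.exp (∑ e, c σ e * y e) / ∑ τ, Real.exp (∑ e, c τ e * y e)

/-- The exponent of a configuration. -/
def expo (c : S → ι → ℝ) (σ : S) (y : ι → ℝ) : ℝ := ∑ e, c σ e * y e

omit [Fintype S] in
lemma expo_single (c : S → ι → ℝ) (σ : S) (e : ι) (y : ι → ℝ) (s : ℝ) :
    expo c σ (y + Pi.single e s) = expo c σ y + c σ e * s := by
  simp only [expo, Pi.add_apply, mul_add, Finset.sum_add_distrib]
  congr 1
  rw [Finset.sum_eq_single e (fun i _ hi => by simp [Pi.single_eq_of_ne hi])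
    (fun h => absurd (Finset.mem_univ e) h), Pi.single_eq_same]

omit [Fintype S] in
lemma hasDerivAt_expo (c : S → ι → ℝ) (σ : S) (e : ι) (y : ι → ℝ) (x : ℝ) :
    HasDerivAt (fun s => Real.exp (expo c σ (y + Pi.single e s)))
      (Real.exp (expo c σ (y + Pi.single e x)) * c σ e) x := by
  simp only [expo_single]
  simpa using (((hasDerivAt_id x).const_mul (c σ e)).const_add (expo c σ y)).exp

omit [DecidableEq ι] in
lemma zpos [Nonempty S] (c : S → ι → ℝ) (y : ι → ℝ) : 0 < ∑ σ, Real.exp (expo c σ y) :=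
  Finset.sum_pos (fun _ _ => Real.exp_pos _) Finset.univ_nonempty

omit [DecidableEq ι] in
lemma leaf_eq (c : S → ι → ℝ) (t : ℝ) (y : ι → ℝ) :
    Guerra.leaf c t y = Real.log (∑ σ, Real.exp (expo c σ y)) := rfl

omit [DecidableEq ι] in
lemma leafW_eq (c : S → ι → ℝ) (σ : S) (t : ℝ) (y : ι → ℝ) :
    Guerra.leafW c σ t y = Real.exp (expo c σ y) / ∑ τ, Real.exp (expo c τ y) := rfl

lemma hasDerivAt_leaf [Nonempty S] (c : S → ι → ℝ) (t : ℝ) (e : ι) (y : ι → ℝ) (x : ℝ) :
    HasDerivAt (fun s => Guerra.leaf c t (y + Pi.single e s))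
      (∑ σ, Guerra.leafW c σ t (y + Pi.single e x) * c σ e) x := by
  simp only [leaf_eq]
  refine ((HasDerivAt.fun_sum fun σ _ => hasDerivAt_expo c σ e y x).log
    (zpos c _).ne').congr_deriv ?_
  simp only [leafW_eq, Finset.sum_div]
  exact Finset.sum_congr rfl fun σ _ => by ring

lemma hasDerivAt_leafP [Nonempty S] (c : S → ι → ℝ) {ω : ι → ℝ} (hω : ∀ σ e, c σ e ^ 2 = ω e)
    (t : ℝ) (e : ι) (y : ι → ℝ) (x : ℝ) :
    HasDerivAt (fun s => ∑ σ, Guerra.leafW c σ t (y + Pi.single e s) * c σ e)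
      (ω e - (∑ σ, Guerra.leafW c σ t (y + Pi.single e x) * c σ e) ^ 2) x := by
  have e0 : ∀ z : ι → ℝ, ∑ σ, Guerra.leafW c σ t z * c σ e =
      (∑ σ, Real.exp (expo c σ z) * c σ e) / ∑ τ, Real.exp (expo c τ z) := fun z => by
    rw [Finset.sum_div]
    exact Finset.sum_congr rfl fun σ _ => by rw [leafW_eq]; ring
  have hn : HasDerivAt (fun s => ∑ σ, Real.exp (expo c σ (y + Pi.single e s)) * c σ e)
      (ω e * ∑ σ, Real.exp (expo c σ (y + Pi.single e x))) x := by
    refine (HasDerivAt.fun_sum fun σ _ =>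
      (hasDerivAt_expo c σ e y x).mul_const (c σ e)).congr_deriv ?_
    rw [Finset.mul_sum]
    exact Finset.sum_congr rfl fun σ _ => by rw [← hω σ e]; ring
  have hd : HasDerivAt (fun s => ∑ τ, Real.exp (expo c τ (y + Pi.single e s)))
      (∑ σ, Real.exp (expo c σ (y + Pi.single e x)) * c σ e) x :=
    HasDerivAt.fun_sum fun σ _ => hasDerivAt_expo c σ e y x
  simp only [e0]
  refine (hn.div hd (zpos c _).ne').congr_deriv ?_
  have := (zpos c (y + Pi.single (M := fun _ => ℝ) e x)).ne'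
  field_simp

/-- The terminal state when the squares `c σ e ^ 2` do not depend on `σ`. -/
theorem St.leaf [Nonempty S] {ω : ι → ℝ} {B : ℝ} (hω : ∀ σ e, c σ e ^ 2 = ω e) (hM : M ≤ 1)
    (hB : ∀ p : S → ℝ, (∀ σ, 0 ≤ p σ) → ∑ σ, p σ = 1 → -B ≤ ∑ e, γ e * (∑ σ, p σ * c σ e) ^ 2) :
    St c (Guerra.leaf c) M γ (1 / 2 * ∑ e, γ e * ω e + (1 - M) / 2 * B) := by
  refine St.weaken hM hB ?_
  have hZ := zpos c
  have hec : ∀ σ, Continuous fun p : ℝ × (ι → ℝ) => Real.exp (expo c σ p.2) := fun σ => by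
    unfold expo; fun_prop
  have hwc : ∀ σ, Continuous (Function.uncurry (Guerra.leafW c σ)) := fun σ =>
    ((hec σ).div (continuous_finsetSum _ fun τ _ => hec τ) fun p => (hZ p.2).ne').congr
      fun p => (leafW_eq c σ p.1 p.2).symm
  have hw1 : ∀ (t : ℝ) (y : ι → ℝ), ∑ σ, Guerra.leafW c σ t y = 1 := fun t y => by
    simp only [leafW_eq, ← Finset.sum_div]
    exact div_self (hZ y).ne'
  have hw0 : ∀ σ (t : ℝ) (y : ι → ℝ), 0 ≤ Guerra.leafW c σ t y := fun σ t y =>
    div_nonneg (Real.exp_pos _).le (hZ y).le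
  set P : ι → ℝ → (ι → ℝ) → ℝ := fun e t y => ∑ σ, Guerra.leafW c σ t y * c σ e with hP
  set Q : ι → ℝ → (ι → ℝ) → ℝ := fun e t y => ω e - P e t y ^ 2 with hQ
  have hgrad : Grad c P (Guerra.leafW c) := ⟨hwc, hw0, hw1, fun e t y => rfl⟩
  set L := (∑ e, ∑ σ, |c σ e|) + (∑ e, |ω e|) + (∑ e, ∑ σ, |c σ e|) ^ 2
  have hPb : ∀ e t y, |P e t y| ≤ ∑ i, ∑ σ, |c σ i| := fun e t y => by
    refine (Finset.abs_sum_le_sum_abs _ _).trans (le_trans (Finset.sum_le_sum fun σ _ => ?_)
      (Finset.single_le_sum (f := fun i => ∑ σ, |c σ i|)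
        (fun i _ => Finset.sum_nonneg fun σ _ => abs_nonneg _) (Finset.mem_univ e)))
    rw [abs_mul]
    exact mul_le_of_le_one_left (abs_nonneg _) (hgrad.le_one σ t y)
  have hA : 0 ≤ ∑ e, ∑ σ, |c σ e| := by positivity
  have hW : 0 ≤ ∑ e, |ω e| := by positivity
  have hPc : ∀ e, Continuous (Function.uncurry (P e)) := fun e =>
    continuous_finsetSum _ fun σ _ => (hwc σ).mul continuous_const
  refine ⟨L, P, Q, fun _ _ => 0, Guerra.leafW c, ⟨by positivity, ?_, hPc,
    fun e => continuous_const.sub ((hPc e).pow 2), continuousOn_const, fun e t y x => ?_,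
    fun e t y x => ?_, fun t _ y => hasDerivAt_const t _, fun e t y => ?_, fun e t y => ?_,
    fun t _ y => ?_⟩, hgrad, fun t _ y => ?_⟩
  · exact ((continuous_finsetSum _ fun σ _ => hec σ).log fun p => (hZ p.2).ne').congr
      fun p => (leaf_eq c p.1 p.2).symm
  · exact hasDerivAt_leaf c t e y x
  · exact hasDerivAt_leafP c hω t e y x
  · exact (hPb e t y).trans (by nlinarith)
  · refine (abs_sub _ _).trans ?_
    have h1 : |ω e| ≤ ∑ i, |ω i| :=
      Finset.single_le_sum (f := fun i => |ω i|) (fun i _ => abs_nonneg _) (Finset.mem_univ e)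
    have h2 := pow_le_pow_left₀ (abs_nonneg _) (hPb e t y) 2
    rw [← abs_pow] at h2
    linarith
  · simp only [abs_zero]; positivity
  · simp [hQ]

end Vale.Agent.P146.Tail.Guerra
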