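import Vale.Agent.P146.Tail.Guerra.Model

/-!
The two ends of the interpolation.
-/

noncomputable section

open MeasureTheory ProbabilityTheory Filter Topology Set
open scoped BigOperators ENNReal

namespace Vale.Agent.P146.Tail.Guerra

open Vale.Agent.P157.Parisi (layer level level_cons_zero)
open Vale.Agent.P157.Parisi.Full (logCosh)
open Vale.Agent.P157.Parisi.Up (Lip1)
open Vale.Agent.P157.Parisi.Full.Concave (den den_pos layer_eq_log good_level)
open Vale.Agent.P146.Div.Min (layer_self)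

variable {n : ℕ} {β : ℝ}

lemma vlevel_still {ι : Type*} [DecidableEq ι] {m : ℝ} (hm : m ≠ 0) {δ : ℝ → ℝ} {t : ℝ}
    (hδ : δ t = 0) (F : ℝ → (ι → ℝ) → ℝ) : ∀ (l : List ι) (y : ι → ℝ),
    vlevel m δ l F t y = F t y
  | [], _ => rfl
  | a :: l, y => by
    show vstep m δ a (vlevel m δ l F) t y = _
    rw [vstep, hδ, layer_self hm]
    simp [line, vlevel_still hm hδ F l]

lemma gch_one : ∀ {r : ℕ} (m : Fin r → ℝ) (q : Fin (r + 1) → ℝ), (∀ i, 0 < m i) →
    ∀ y, gch β n m q 1 y = leaf (coef β) 1 y := by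
  intro r
  induction r with
  | zero => intro m q _ y; rfl
  | succ r ih =>
    intro m q hm y
    show vlevel (m 0) _ (sites n) (gch β n (Fin.tail m) (Fin.tail q)) 1 y = _
    rw [vlevel_still (hm 0).ne' (by simp [seg])]
    exact ih _ _ (fun i => hm _) y

lemma layer_const_add {m : ℝ} (hm : 0 < m) {G : ℝ → ℝ} (hG : Lip1 G) (a C x : ℝ) :
    layer m a (fun s => C + G (x + s)) 0 = C + layer m a G x := by
  have hp : 0 < den m a G x := den_pos hm.le hG x
  have e : ∫ g, Real.exp (m * (C + G (x + (0 + Real.sqrt a * g)))) ∂gaussianReal 0 1 =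
      Real.exp (m * C) * den m a G x := by
    rw [den, ← integral_const_mul]
    congr 1; funext g
    rw [zero_add, mul_add, Real.exp_add]
  rw [layer_eq_log (F := G), layer]
  show 1 / m * Real.log (∫ g, Real.exp (m * (C + G (x + (0 + Real.sqrt a * g))))
    ∂gaussianReal 0 1) = _
  rw [e, Real.log_mul (Real.exp_pos _).ne' hp.ne', Real.log_exp, mul_add, ← mul_assoc,
    one_div_mul_cancel hm.ne', one_mul]

/-- A level at the time zero, on a sum over the sites. -/
lemma vlevel_sites {m : ℝ} (hm : 0 < m) {δ : ℝ → ℝ} {G : ℝ → ℝ} (hG : Lip1 G) (C : ℝ)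
    {F : ℝ → (Var n → ℝ) → ℝ}
    (hF : ∀ y : Var n → ℝ, (∀ p, y (Sum.inl p) = 0) → F 0 y = C + ∑ i, G (y (Sum.inr i))) :
    ∀ (l : List (Fin n)), l.Nodup → ∀ y : Var n → ℝ, (∀ p, y (Sum.inl p) = 0) →
      vlevel m δ (l.map Sum.inr) F 0 y =
        C + ∑ i, if i ∈ l then layer m (δ 0) G (y (Sum.inr i)) else G (y (Sum.inr i))
  | [], _, y, hy => by simp [vlevel, hF y hy]
  | a :: l, hl, y, hy => by
    obtain ⟨ha, hl'⟩ := List.nodup_cons.1 hl
    show vstep m δ (Sum.inr a) (vlevel m δ (l.map Sum.inr) F) 0 y = _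
    set R := ∑ i ∈ Finset.univ.erase a,
      if i ∈ l then layer m (δ 0) G (y (Sum.inr i)) else G (y (Sum.inr i)) with hR
    have e : line (Sum.inr a) y (vlevel m δ (l.map Sum.inr) F) 0 =
        fun s => (C + R) + G (y (Sum.inr a) + s) := by
      funext s
      rw [line, vlevel_sites hm hG C hF l hl' _ fun p => by simp [hy p],
        ← Finset.add_sum_erase _ _ (Finset.mem_univ a), hR]
      have e1 : ∀ i ∈ Finset.univ.erase a, (if i ∈ l then
          layer m (δ 0) G ((y + Pi.single (Sum.inr a) s : Var n → ℝ) (Sum.inr i))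
            else G ((y + Pi.single (Sum.inr a) s : Var n → ℝ) (Sum.inr i))) =
          if i ∈ l then layer m (δ 0) G (y (Sum.inr i)) else G (y (Sum.inr i)) := fun i hi => by
        have hne : i ≠ a := (Finset.mem_erase.1 hi).1
        simp [Pi.single_eq_of_ne (show (Sum.inr i : Var n) ≠ Sum.inr a by simpa using hne)]
      rw [Finset.sum_congr rfl e1, if_neg ha]
      simp only [Pi.add_apply, Pi.single_eq_same]
      ring
    rw [vstep, e, layer_const_add hm hG, ← Finset.add_sum_erase _ _ (Finset.mem_univ a),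
      if_pos (List.mem_cons_self ..)]
    have e2 : ∀ i ∈ Finset.univ.erase a, (if i ∈ a :: l then layer m (δ 0) G (y (Sum.inr i))
        else G (y (Sum.inr i))) =
        if i ∈ l then layer m (δ 0) G (y (Sum.inr i)) else G (y (Sum.inr i)) := fun i hi => by
      simp [(Finset.mem_erase.1 hi).1]
    rw [Finset.sum_congr rfl e2, hR]
    ring

lemma leaf_sites (y : Var n → ℝ) (hy : ∀ p, y (Sum.inl p) = 0) :
    leaf (coef β) 0 y = (n : ℝ) * Real.log 2 + ∑ i, logCosh (y (Sum.inr i)) := by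
  have e : ∀ σ : Fin n → Bool, ∑ e, coef β σ e * y e = ∑ i, spin (σ i) * y (Sum.inr i) := fun σ => by
    simp [Fintype.sum_sum_type, coef, hy]
  simp only [leaf, e, Real.exp_sum]
  rw [← Fintype.prod_sum (fun i (b : Bool) => Real.exp (spin b * y (Sum.inr i))),
    Real.log_prod fun i _ => (Finset.sum_pos (fun _ _ => Real.exp_pos _) Finset.univ_nonempty).ne']
  have e1 : ∀ x : ℝ, Real.log (∑ b : Bool, Real.exp (spin b * x)) = Real.log 2 + logCosh x :=
    fun x => by
      rw [logCosh, ← Real.log_mul two_ne_zero (Real.cosh_pos x).ne', Real.cosh_eq,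
        Fintype.sum_bool]
      simp only [spin, if_true, Bool.false_eq_true, if_false, one_mul, neg_one_mul]
      congr 1; ring
  rw [Finset.sum_congr rfl fun i _ => e1 _, Finset.sum_add_distrib]
  simp

lemma gch_zero : ∀ {r : ℕ} (m : Fin r → ℝ) (q : Fin (r + 1) → ℝ), (∀ i, 0 < m i) →
    ∀ y : Var n → ℝ, (∀ p, y (Sum.inl p) = 0) → gch β n m q 0 y =
      (n : ℝ) * Real.log 2 + ∑ i, level m (fun p => β ^ 2 * q p) logCosh 0 (y (Sum.inr i)) := by
  intro r
  induction r with
  | zero => intro m q _ y hy; exact leaf_sites y hy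
  | succ r ih =>
    intro m q hm y hy
    show vlevel (m 0) _ (sites n) (gch β n (Fin.tail m) (Fin.tail q)) 0 y = _
    have hG : Lip1 (level (Fin.tail m) (fun p => β ^ 2 * Fin.tail q p) logCosh 0) :=
      (good_level (m := Fin.tail m) (fun i => hm _) _ _).lip
    rw [sites, vlevel_sites (hm 0) hG ((n : ℝ) * Real.log 2)
      (fun z hz => ih (Fin.tail m) (Fin.tail q) (fun i => hm _) z hz) _ (Finset.nodup_toList _) y hy]
    congr 1
    refine Finset.sum_congr rfl fun i _ => ?_
    rw [if_pos (Finset.mem_toList.2 (Finset.mem_univ i)), level_cons_zero]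
    simp only [seg, sub_zero, one_mul, zero_mul, add_zero, mul_sub]
    rfl

/-- The time zero. -/
theorem ch_zero {μ : ℝ} (hμ : 0 < μ) {r : ℕ} (m : Fin r → ℝ) (q : Fin (r + 1) → ℝ)
    (hm : ∀ i, 0 < m i) : ch β n μ m q 0 0 =
      (n : ℝ) * (Real.log 2 + level m (fun p => β ^ 2 * q p) logCosh 0 0) := by
  rw [ch, vlevel_still hμ.ne' (by simp [seg]), gch_zero m q hm 0 (fun p => rfl)]
  simp only [Pi.zero_apply, Finset.sum_const, Finset.card_univ, Fintype.card_fin, nsmul_eq_mul]
  ring

/-- The field vector with given pair variables and no site fields. -/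
def emb (g : Pair n → ℝ) : Var n → ℝ := Sum.elim g 0

lemma emb_update (g : Pair n → ℝ) (a : Pair n) (x : ℝ) (h : g a = 0) :
    emb g + Pi.single (Sum.inl a) x = emb (Function.update g a x) := by
  funext e
  rcases e with p | i
  · rcases eq_or_ne p a with rfl | hne
    · simp [emb, h]
    · simp [emb, hne, Pi.single_eq_of_ne (show (Sum.inl p : Var n) ≠ Sum.inl a by simpa using hne)]
  · simp [emb]

/-- Smooth in the class. -/
def Smooth {ι : Type*} [DecidableEq ι] (F : ℝ → (ι → ℝ) → ℝ) : Prop :=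
  ∃ L P Q D, VFam L F P Q D

lemma Smooth.vlevel {ι : Type*} [DecidableEq ι] [Finite ι] {m a b : ℝ} (hm : 0 < m) (ha : 0 ≤ a)
    (hb : 0 ≤ b) {F : ℝ → (ι → ℝ) → ℝ} (hF : Smooth F) :
    ∀ l : List ι, Smooth (Guerra.vlevel m (seg a b) l F)
  | [] => hF
  | e :: l => by
    obtain ⟨L, P, Q, D, h⟩ := Smooth.vlevel hm ha hb hF l
    obtain ⟨L', h'⟩ := h.step hm (Vale.Agent.P157.Parisi.Full.Deriv.inc_segment ha hb) e
    exact ⟨L', _, _, _, h'⟩

lemma St.smooth {ι S : Type*} [Fintype ι] [DecidableEq ι] [Fintype S] {c : S → ι → ℝ}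
    {F : ℝ → (ι → ℝ) → ℝ} {M K : ℝ} {γ : ι → ℝ} (h : St c F M γ K) : Smooth F := by
  obtain ⟨L, P, Q, D, w, hF, -, -⟩ := h
  exact ⟨L, P, Q, D, hF⟩

/-- The time one is the exponential moment in the disorder. -/
lemma exp_vlevel_pairs {μ : ℝ} (hμ : 0 < μ) {F : ℝ → (Var n → ℝ) → ℝ} (hF : Smooth F) :
    ∀ l : List (Pair n), l.Nodup → ∀ g : Pair n → ℝ, (∀ p ∈ l, g p = 0) →
      ENNReal.ofReal (Real.exp (μ * vlevel μ (seg 0 1) (l.map Sum.inl) F 1 (emb g))) =
        lmarginal (fun _ => gaussianReal 0 1) l.toFinset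
          (fun h => ENNReal.ofReal (Real.exp (μ * F 1 (emb h)))) g
  | [], _, g, _ => by simp [vlevel]
  | a :: l, hl, g, hg => by
    obtain ⟨ha, hl'⟩ := List.nodup_cons.1 hl
    obtain ⟨L, P, Q, D, hV⟩ := Smooth.vlevel (a := 0) (b := 1) hμ le_rfl zero_le_one hF
      (l.map Sum.inl)
    have hδ : Continuous (seg 0 1) := by unfold seg; fun_prop
    have hmeas : Measurable fun h : Pair n → ℝ => ENNReal.ofReal (Real.exp (μ * F 1 (emb h))) := by
      obtain ⟨L', P', Q', D', hV'⟩ := hF
      have he : Continuous fun h : Pair n → ℝ => emb h := continuous_pi fun e => by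
        rcases e with p | i
        · exact continuous_apply p
        · exact continuous_const
      exact ((((hV'.c0.uncurry_left 1).comp he).const_mul μ).rexp).measurable.ennreal_ofReal
    have hpos := hV.vnum_one_pos (a := Sum.inl a) hμ.le hδ 1 (emb g)
    have e1 : Real.exp (μ * vlevel μ (seg 0 1) ((a :: l).map Sum.inl) F 1 (emb g)) =
        vnum μ (seg 0 1) (Sum.inl a) (vlevel μ (seg 0 1) (l.map Sum.inl) F) (fun _ _ => 1) 1
          (emb g) := by
      show Real.exp (μ * vstep μ _ _ _ 1 (emb g)) = _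
      rw [vstep_eq, ← mul_assoc, mul_one_div_cancel hμ.ne', one_mul, Real.exp_log hpos]
    have hint := hV.integrable_vnum hμ.le hδ (Sum.inl a) 1 (emb g) (h := fun _ _ => 1)
      continuous_const (B := 1) fun _ => by simp
    rw [e1, List.toFinset_cons, lmarginal_insert _ hmeas (by simpa using ha), vnum_eq,
      ofReal_integral_eq_lintegral_ofReal hint
        (Eventually.of_forall fun z => mul_nonneg (Real.exp_pos _).le zero_le_one)]
    refine lintegral_congr fun z => ?_
    rw [show Real.sqrt (seg 0 1 1) * z = z by simp [seg], mul_one,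
      emb_update g a z (hg a (List.mem_cons_self ..))]
    exact exp_vlevel_pairs hμ hF l hl' _ fun p hp => by
      rw [Function.update_of_ne (fun h : p = a => ha (h ▸ hp))]
      exact hg p (List.mem_cons_of_mem _ hp)

lemma leaf_emb (g : Pair n → ℝ) : leaf (coef β) 1 (emb g) = freeEnergy n β g := by
  have e : ∀ σ : Fin n → Bool, ∑ e, coef β σ e * emb g e = β * hamiltonian n g σ := fun σ => by
    simp only [Fintype.sum_sum_type, coef, emb, Sum.elim_inl, Sum.elim_inr, Pi.zero_apply, mul_zero,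
      Finset.sum_const_zero, add_zero, hamiltonian, Finset.sum_div, Finset.mul_sum]
    exact Finset.sum_congr rfl fun p _ => by ring
  simp only [leaf, e]
  rfl

/-- The time one. -/
theorem lintegral_eq (hn : n ≠ 0) {μ : ℝ} (hμ : 0 < μ) (hμ1 : μ ≤ 1) {r : ℕ} {m : Fin r → ℝ}
    {q : Fin (r + 1) → ℝ} (hm : Monotone m) (hlow : ∀ i, μ ≤ m i) (hm1 : ∀ i, m i ≤ 1)
    (hq : Monotone q) :
    ∫⁻ g, ENNReal.ofReal (Real.exp (μ * freeEnergy n β g)) ∂disorder n =
      ENNReal.ofReal (Real.exp (μ * ch β n μ m q 1 0)) := by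
  have hpos : ∀ i, 0 < m i := fun i => hμ.trans_le (hlow i)
  have h := exp_vlevel_pairs (n := n) hμ
    (st_gch β hn m q hm hm1 hq hpos μ hμ1 hlow).smooth _ (Finset.nodup_toList Finset.univ) 0
    fun _ _ => rfl
  simp only [gch_one m q hpos, leaf_emb, Finset.toList_toFinset, lmarginal_univ] at h
  have e0 : emb (0 : Pair n → ℝ) = 0 := by
    funext e; rcases e with p | i <;> simp [emb]
  rw [e0] at h
  exact h.symm

end Vale.Agent.P146.Tail.Guerra
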