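import Vale.Agent.P146.Tail.Guerra.Chain
import Vale.Agent.P146.Div.Min.Basic

/-!
The interpolation for the free energy: pairs carry the disorder, sites the fields of the path.
-/

noncomputable section

open MeasureTheory ProbabilityTheory Filter Topology Set
open scoped BigOperators

namespace Vale.Agent.P146.Tail.Guerra

open Vale.Agent.P157.Parisi.Full.Deriv (J Inc inc_segment)
open Vale.Agent.P146.Div.Min (jump jump_cons)

variable {n : ℕ}

/-- The variables: one for each pair and one for each site. -/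
abbrev Var (n : ℕ) : Type := Pair n ⊕ Fin n

/-- The coefficients of a configuration. -/
def coef (β : ℝ) (σ : Fin n → Bool) : Var n → ℝ :=
  Sum.elim (fun p => β / Real.sqrt n * (spin (σ p.1.1) * spin (σ p.1.2))) fun i => spin (σ i)

/-- The rates of the steps outside the field value `v`. -/
def rate (β v : ℝ) : Var n → ℝ := Sum.elim (fun _ => 1) fun _ => -(β ^ 2 * v)

/-- A variance moving from `a` to `b`. -/
def seg (a b t : ℝ) : ℝ := (1 - t) * a + t * b

/-- The list of the sites. -/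
def sites (n : ℕ) : List (Var n) := (Finset.univ : Finset (Fin n)).toList.map Sum.inr

/-- The list of the pairs. -/
def pairs (n : ℕ) : List (Var n) := (Finset.univ : Finset (Pair n)).toList.map Sum.inl

/-- The levels of the path below the root. -/
def gch (β : ℝ) (n : ℕ) : {r : ℕ} → (Fin r → ℝ) → (Fin (r + 1) → ℝ) → ℝ → (Var n → ℝ) → ℝ
  | 0, _, _ => leaf (coef β)
  | _ + 1, m, q => vlevel (m 0) (seg (β ^ 2 * (q 1 - q 0)) 0) (sites n)
      (gch β n (Fin.tail m) (Fin.tail q))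

/-- The interpolation with the disorder at the exponent `μ`. -/
def ch (β : ℝ) (n : ℕ) (μ : ℝ) {r : ℕ} (m : Fin r → ℝ) (q : Fin (r + 1) → ℝ) :
    ℝ → (Var n → ℝ) → ℝ :=
  vlevel μ (seg 0 1) (pairs n) (gch β n m q)

/-- The bound on the derivative. -/
def slopeBound (β : ℝ) (n : ℕ) (M : ℝ) {r : ℕ} (m : Fin r → ℝ) (q : Fin (r + 1) → ℝ) : ℝ :=
  β ^ 2 / 4 * ((n : ℝ) *
    ((1 - q (Fin.last r)) ^ 2 - M * q 0 ^ 2 - jump (fun x => x ^ 2) m q) - M)

lemma spin_sq (b : Bool) : spin b ^ 2 = 1 := by cases b <;> simp [spin]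

lemma spin_mul_self (b : Bool) : spin b * spin b = 1 := by rw [← sq, spin_sq]

lemma sum_pairs (f : Fin n → Fin n → ℝ) (hf : ∀ i j, f i j = f j i) :
    2 * (∑ p : Pair n, f p.1.1 p.1.2) + ∑ i, f i i = ∑ i, ∑ j, f i j := by
  have e1 : ∑ p : Pair n, f p.1.1 p.1.2 = ∑ i, ∑ j, if i < j then f i j else 0 := by
    rw [← Fintype.sum_prod_type' (f := fun i j : Fin n => if i < j then f i j else 0),
      ← Finset.sum_filter]
    exact (Finset.sum_subtype (p := fun p : Fin n × Fin n => p.1 < p.2)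
      (Finset.univ.filter fun p : Fin n × Fin n => p.1 < p.2) (by simp)
      (fun p : Fin n × Fin n => f p.1 p.2)).symm
  have e2 : ∑ i, ∑ j, (if i < j then f i j else 0) = ∑ i, ∑ j, if j < i then f i j else 0 := by
    rw [Finset.sum_comm]
    exact Finset.sum_congr rfl fun i _ => Finset.sum_congr rfl fun j _ => by rw [hf j i]
  rw [e1, two_mul]
  nth_rw 2 [e2]
  simp only [← Finset.sum_add_distrib]
  refine Finset.sum_congr rfl fun i _ => ?_
  have e3 : f i i = ∑ j, if j = i then f i j else 0 := by simp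
  rw [e3, ← Finset.sum_add_distrib]
  refine Finset.sum_congr rfl fun j _ => ?_
  rcases lt_trichotomy i j with h | h | h
  · simp [h, h.not_gt, h.ne']
  · subst h; simp
  · simp [h, h.not_gt, h.ne]

lemma two_card_pairs (n : ℕ) : 2 * (Fintype.card (Pair n) : ℝ) + n = (n : ℝ) * n := by
  have h := sum_pairs (n := n) (fun _ _ => (1 : ℝ)) fun _ _ => rfl
  simpa using h

lemma coef_sq (β : ℝ) (hn : n ≠ 0) (σ : Fin n → Bool) (e : Var n) :
    coef β σ e ^ 2 = Sum.elim (fun _ => β ^ 2 / n) (fun _ => 1) e := by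
  have hn' : (0 : ℝ) < n := by exact_mod_cast Nat.pos_of_ne_zero hn
  rcases e with p | i
  · simp only [coef, Sum.elim_inl, mul_pow, spin_sq, mul_one, div_pow, Real.sq_sqrt hn'.le]
  · simp [coef, spin_sq]

/-- The quadratic inequality behind the bound. -/
lemma rate_quad (β : ℝ) (hn : n ≠ 0) (v : ℝ) (p : (Fin n → Bool) → ℝ) (hp : ∀ σ, 0 ≤ p σ)
    (h1 : ∑ σ, p σ = 1) :
    -(β ^ 2 / 2 * ((n : ℝ) * v ^ 2 + 1)) ≤
      ∑ e, rate β v e * (∑ σ, p σ * coef β σ e) ^ 2 := by
  have hn' : (0 : ℝ) < n := by exact_mod_cast Nat.pos_of_ne_zero hn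
  set M : Fin n → Fin n → ℝ := fun i j => ∑ σ, p σ * (spin (σ i) * spin (σ j)) with hM
  set b : Fin n → ℝ := fun i => ∑ σ, p σ * spin (σ i) with hb
  set X := ∑ i, b i ^ 2 with hX
  set Y := ∑ i, ∑ j, M i j ^ 2 with hY
  have hS := sum_pairs (fun i j => M i j ^ 2) fun i j => by
    simp only [hM, mul_comm (spin _) (spin _)]
  have hdiag : ∀ i, M i i = 1 := fun i => by simp only [hM, spin_mul_self, mul_one, h1]
  simp only [hdiag, one_pow, Finset.sum_const, Finset.card_univ, Fintype.card_fin,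
    nsmul_eq_mul, mul_one] at hS
  have hbMb : X ^ 2 ≤ ∑ i, ∑ j, b i * b j * M i j := by
    set u : (Fin n → Bool) → ℝ := fun σ => ∑ i, b i * spin (σ i) with hu
    have e : ∑ i, ∑ j, b i * b j * M i j = ∑ σ, p σ * u σ ^ 2 := by
      simp only [hu, hM, Finset.mul_sum]
      rw [Finset.sum_congr rfl fun i _ => Finset.sum_comm, Finset.sum_comm]
      refine Finset.sum_congr rfl fun σ _ => ?_
      rw [sq, Finset.sum_mul_sum, Finset.mul_sum]
      refine Finset.sum_congr rfl fun i _ => ?_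
      rw [Finset.mul_sum]
      exact Finset.sum_congr rfl fun j _ => by ring
    have e' : X = ∑ σ, p σ * u σ := by
      simp only [hu, hX, Finset.mul_sum]
      rw [Finset.sum_comm]
      refine Finset.sum_congr rfl fun i _ => ?_
      have h4 : ∑ σ, p σ * (b i * spin (σ i)) = b i * b i := by
        rw [show b i * b i = b i * ∑ σ, p σ * spin (σ i) from rfl, Finset.mul_sum]
        exact Finset.sum_congr rfl fun σ _ => by ring
      rw [h4, sq]
    rw [e, e']
    have h2 : ∑ σ, p σ * (u σ - ∑ τ, p τ * u τ) ^ 2 =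
        ∑ σ, p σ * u σ ^ 2 - (∑ σ, p σ * u σ) ^ 2 := by
      set C := ∑ τ, p τ * u τ with hC
      have e2 : ∀ σ, p σ * (u σ - C) ^ 2 =
          p σ * u σ ^ 2 - 2 * C * (p σ * u σ) + C ^ 2 * p σ := fun σ => by ring
      simp only [e2, Finset.sum_add_distrib, Finset.sum_sub_distrib, ← Finset.mul_sum, h1, ← hC]
      ring
    have h3 : 0 ≤ ∑ σ, p σ * (u σ - ∑ τ, p τ * u τ) ^ 2 :=
      Finset.sum_nonneg fun σ _ => mul_nonneg (hp σ) (sq_nonneg _)
    linarith
  have hXY : X ^ 2 ≤ Y := by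
    have h : 0 ≤ ∑ i, ∑ j, (M i j - b i * b j) ^ 2 :=
      Finset.sum_nonneg fun i _ => Finset.sum_nonneg fun j _ => sq_nonneg _
    have e : ∑ i, ∑ j, (M i j - b i * b j) ^ 2 =
        Y - 2 * (∑ i, ∑ j, b i * b j * M i j) + X ^ 2 := by
      have e2 : ∀ i j, (M i j - b i * b j) ^ 2 =
          M i j ^ 2 - 2 * (b i * b j * M i j) + b i ^ 2 * b j ^ 2 := fun i j => by ring
      simp only [e2, Finset.sum_add_distrib, Finset.sum_sub_distrib, ← Finset.mul_sum,
        ← Finset.sum_mul, hY, hX, sq (∑ i, b i ^ 2)]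
    linarith
  have hl : ∀ p' : Pair n, (∑ σ, p σ * coef β σ (Sum.inl p')) ^ 2 =
      β ^ 2 / n * M p'.1.1 p'.1.2 ^ 2 := fun p' => by
    have e : ∑ σ, p σ * coef β σ (Sum.inl p') = β / Real.sqrt n * M p'.1.1 p'.1.2 := by
      simp only [coef, Sum.elim_inl, hM, Finset.mul_sum]
      exact Finset.sum_congr rfl fun σ _ => by ring
    rw [e, mul_pow, div_pow, Real.sq_sqrt hn'.le]
  have hr : ∀ i : Fin n, (∑ σ, p σ * coef β σ (Sum.inr i)) ^ 2 = b i ^ 2 := fun i => by
    simp [coef, hb]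
  rw [Fintype.sum_sum_type]
  simp only [hl, hr, rate, Sum.elim_inl, Sum.elim_inr, one_mul, ← Finset.mul_sum, ← hX]
  have key : 2 * (n : ℝ) * v * X ≤ (n : ℝ) ^ 2 * v ^ 2 + Y := by
    nlinarith [sq_nonneg ((n : ℝ) * v - X)]
  set Sp := ∑ p' : Pair n, M p'.1.1 p'.1.2 ^ 2
  have e : β ^ 2 / n * Sp + -(β ^ 2 * v) * X + β ^ 2 / 2 * ((n : ℝ) * v ^ 2 + 1) =
      β ^ 2 / (2 * n) * (2 * Sp + n + n ^ 2 * v ^ 2 - 2 * n * v * X) := by field_simp; ring
  have h0 : 0 ≤ β ^ 2 / (2 * n) * (2 * Sp + n + n ^ 2 * v ^ 2 - 2 * n * v * X) :=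
    mul_nonneg (by positivity) (by linarith)
  linarith

lemma inc_seg {a b : ℝ} (ha : 0 ≤ a) (hb : 0 ≤ b) : Inc (seg a b) (b - a) := inc_segment ha hb

lemma nodup_sites (n : ℕ) : (sites n).Nodup :=
  (Finset.nodup_toList _).map Sum.inr_injective

lemma nodup_pairs (n : ℕ) : (pairs n).Nodup :=
  (Finset.nodup_toList _).map Sum.inl_injective

lemma mem_pairs (p : Pair n) : Sum.inl p ∈ pairs n :=
  List.mem_map.2 ⟨p, Finset.mem_toList.2 (Finset.mem_univ p), rfl⟩

lemma not_mem_pairs (i : Fin n) : Sum.inr i ∉ pairs n := by simp [pairs]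

/-- The levels of the path satisfy the inequality. -/
theorem st_gch (β : ℝ) (hn : n ≠ 0) : ∀ {r : ℕ} (m : Fin r → ℝ) (q : Fin (r + 1) → ℝ),
    Monotone m → (∀ i, m i ≤ 1) → Monotone q → (∀ i, 0 < m i) → ∀ M, M ≤ 1 → (∀ i, M ≤ m i) →
      St (coef β) (gch β n m q) M (rate β (q 0)) (slopeBound β n M m q) := by
  have hn' : (0 : ℝ) < n := by exact_mod_cast Nat.pos_of_ne_zero hn
  intro r
  induction r with
  | zero =>
    intro m q _ _ _ _ M hM _
    have h := St.leaf (γ := rate β (q 0)) (B := β ^ 2 / 2 * ((n : ℝ) * q 0 ^ 2 + 1))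
      (coef_sq β hn) hM (rate_quad β hn (q 0))
    show St (coef β) (leaf (coef β)) M _ _
    convert h using 1
    rw [Fintype.sum_sum_type]
    simp only [rate, Sum.elim_inl, Sum.elim_inr, Finset.sum_const, Finset.card_univ,
      Fintype.card_fin, nsmul_eq_mul, slopeBound, jump, Finset.univ_eq_empty, Finset.sum_empty]
    have hc := two_card_pairs n
    have : (Fintype.card (Pair n) : ℝ) * (1 * (β ^ 2 / n)) = β ^ 2 / 2 * ((n : ℝ) - 1) := by
      field_simp
      linear_combination (β ^ 2) * hc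
    rw [this, show Fin.last 0 = (0 : Fin 1) from rfl]
    ring
  | succ r ih =>
    intro m q hm hm1 hq hpos M _ hMm
    have hΔ : 0 ≤ β ^ 2 * (q 1 - q 0) :=
      mul_nonneg (sq_nonneg β) (sub_nonneg.2 (hq (Fin.zero_le 1)))
    have h1 := ih (Fin.tail m) (Fin.tail q) (fun a b hab => hm (Fin.succ_le_succ_iff.2 hab))
      (fun i => hm1 _) (fun a b hab => hq (Fin.succ_le_succ_iff.2 hab)) (fun i => hpos _) (m 0)
      (hm1 0) (fun i => hm (Fin.zero_le _))
    have h2 : St (coef β) (gch β n m q) (m 0) (rate β (q 0))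
        (slopeBound β n (m 0) (Fin.tail m) (Fin.tail q)) := by
      refine St.vlevel (hpos 0) (inc_seg hΔ le_rfl) (sites n) (rate β (q 0)) (nodup_sites n) ?_
      convert h1 using 1
      funext e
      rcases e with p | i
      · simp [sites, rate]
      · simp [sites, rate, Fin.tail]; ring
    have h3 := St.weaken (hMm 0) (rate_quad β hn (q 0)) h2
    convert h3 using 1
    simp only [slopeBound, jump_cons, Fin.tail, Fin.succ_last, Fin.succ_zero_eq_one]
    ring

/-- The interpolation satisfies the inequality. -/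
theorem st_ch (β : ℝ) (hn : n ≠ 0) {μ : ℝ} (hμ : 0 < μ) (hμ1 : μ ≤ 1) {r : ℕ} {m : Fin r → ℝ}
    {q : Fin (r + 1) → ℝ} (hm : Monotone m) (hlow : ∀ i, μ ≤ m i) (hm1 : ∀ i, m i ≤ 1)
    (hq : Monotone q) (h0 : q 0 = 0) :
    St (coef β) (ch β n μ m q) μ 0 (slopeBound β n μ m q) := by
  refine St.vlevel hμ (inc_seg le_rfl zero_le_one) (pairs n) 0 (nodup_pairs n) ?_
  convert st_gch β hn m q hm hm1 hq (fun i => hμ.trans_le (hlow i)) μ hμ1 hlow using 1
  funext e
  rcases e with p | i <;> simp [mem_pairs, not_mem_pairs, rate, h0]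

end Vale.Agent.P146.Tail.Guerra
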