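import Vale.Agent.P157.Full.Deriv.Step
import Vale.Agent.P157.Full.Concave.Basic

/-!
One Gaussian step in one coordinate of a function of finitely many fields and a time: derivatives
along every coordinate and in the time.
-/

noncomputable section

open MeasureTheory ProbabilityTheory Filter Topology Set
open scoped BigOperators

namespace Vale.Agent.P146.Tail.Guerra

open Vale.Agent.P157.Parisi (layer tilt wgt)
open Vale.Agent.P157.Parisi.Full.Deriv (J Fam Inc num nrm tl)

variable {ι : Type*} [DecidableEq ι] [Finite ι]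

/-- The function along the coordinate `a` through `y`. -/
def line (a : ι) (y : ι → ℝ) (h : ℝ → (ι → ℝ) → ℝ) (t s : ℝ) : ℝ := h t (y + Pi.single a s)

lemma add_single_single (a : ι) (y : ι → ℝ) (u v : ℝ) :
    y + Pi.single a u + Pi.single a v = y + Pi.single a (u + v) := by
  rw [add_assoc, Pi.single_add]

lemma add_single_comm (a e : ι) (y : ι → ℝ) (u v : ℝ) :
    y + Pi.single e u + Pi.single a v = y + Pi.single a v + Pi.single e u := add_right_comm _ _ _

lemma continuous_shift (a : ι) :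
    Continuous fun p : (ι → ℝ) × ℝ => p.1 + Pi.single (M := fun _ => ℝ) a p.2 :=
  continuous_fst.add ((continuous_single (A := fun _ => ℝ) a).comp continuous_snd)

/-- Functions of a time and finitely many fields, with two derivatives along every coordinate and
one in time, all bounded. -/
structure VFam (L : ℝ) (F : ℝ → (ι → ℝ) → ℝ) (P Q : ι → ℝ → (ι → ℝ) → ℝ)
    (D : ℝ → (ι → ℝ) → ℝ) : Prop where
  nn : 0 ≤ L
  c0 : Continuous (Function.uncurry F)
  c1 : ∀ e, Continuous (Function.uncurry (P e))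
  c2 : ∀ e, Continuous (Function.uncurry (Q e))
  cD : ContinuousOn (Function.uncurry D) (J ×ˢ univ)
  d1 : ∀ e t y x, HasDerivAt (line e y F t) (line e y (P e) t x) x
  d2 : ∀ e t y x, HasDerivAt (line e y (P e) t) (line e y (Q e) t x) x
  dt : ∀ t ∈ J, ∀ y, HasDerivAt (fun s => F s y) (D t y) t
  b1 : ∀ e t y, |P e t y| ≤ L
  b2 : ∀ e t y, |Q e t y| ≤ L
  bD : ∀ t ∈ J, ∀ y, |D t y| ≤ L

variable {L B m d : ℝ} {δ : ℝ → ℝ} {a e : ι} {F : ℝ → (ι → ℝ) → ℝ}
  {P Q : ι → ℝ → (ι → ℝ) → ℝ} {D h h1 : ℝ → (ι → ℝ) → ℝ}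

lemma continuous_line (a : ι) (y : ι → ℝ) (hc : Continuous (Function.uncurry h)) :
    Continuous (Function.uncurry (line a y h)) :=
  hc.comp (continuous_fst.prodMk
    ((continuous_shift a).comp (continuous_const.prodMk continuous_snd)))

lemma VFam.fam (hF : VFam L F P Q D) (a : ι) (y : ι → ℝ) :
    Fam L (line a y F) (line a y (P a)) (line a y (Q a)) (line a y D) where
  nn := hF.nn
  c0 := continuous_line a y hF.c0
  c1 := continuous_line a y (hF.c1 a)
  c2 := continuous_line a y (hF.c2 a)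
  cD := hF.cD.comp (continuous_fst.prodMk
    ((continuous_shift a).comp (continuous_const.prodMk continuous_snd))).continuousOn
    fun p hp => ⟨hp.1, mem_univ _⟩
  d1 t x := hF.d1 a t y x
  d2 t x := hF.d2 a t y x
  dt t ht x := hF.dt t ht _
  b1 t x := hF.b1 a t _
  b2 t x := hF.b2 a t _
  bD t ht x := hF.bD t ht _

/-- One step in the coordinate `a`. -/
def vstep (m : ℝ) (δ : ℝ → ℝ) (a : ι) (F : ℝ → (ι → ℝ) → ℝ) (t : ℝ) (y : ι → ℝ) : ℝ :=
  layer m (δ t) (line a y F t) 0

/-- The unnormalised mean of one step. -/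
def vnum (m : ℝ) (δ : ℝ → ℝ) (a : ι) (F h : ℝ → (ι → ℝ) → ℝ) (t : ℝ) (y : ι → ℝ) : ℝ :=
  num m δ (line a y F) (line a y h) t 0

/-- The normalised mean of one step. -/
def vtl (m : ℝ) (δ : ℝ → ℝ) (a : ι) (F h : ℝ → (ι → ℝ) → ℝ) (t : ℝ) (y : ι → ℝ) : ℝ :=
  tl m δ (line a y F) (line a y h) t 0

lemma vnum_eq (m : ℝ) (δ : ℝ → ℝ) (a : ι) (F h : ℝ → (ι → ℝ) → ℝ) (t : ℝ) (y : ι → ℝ) :
    vnum m δ a F h t y = ∫ g, Real.exp (m * F t (y + Pi.single a (Real.sqrt (δ t) * g))) *
      h t (y + Pi.single a (Real.sqrt (δ t) * g)) ∂gaussianReal 0 1 := by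
  simp [vnum, num, wgt, line]

lemma vtl_eq (m : ℝ) (δ : ℝ → ℝ) (a : ι) (F h : ℝ → (ι → ℝ) → ℝ) (t : ℝ) (y : ι → ℝ) :
    vtl m δ a F h t y = vnum m δ a F h t y / vnum m δ a F (fun _ _ => 1) t y := by
  have e : line a y (fun _ _ => (1 : ℝ)) = fun _ _ => 1 := rfl
  rw [vtl, Vale.Agent.P157.Parisi.Full.Deriv.tl_eq, vnum, vnum, e,
    Vale.Agent.P157.Parisi.Full.Deriv.num_one]

lemma vstep_eq (m : ℝ) (δ : ℝ → ℝ) (a : ι) (F : ℝ → (ι → ℝ) → ℝ) (t : ℝ) (y : ι → ℝ) :
    vstep m δ a F t y = 1 / m * Real.log (vnum m δ a F (fun _ _ => 1) t y) := by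
  simp [vstep, layer, vnum_eq, line]

lemma VFam.vnum_one_pos (hF : VFam L F P Q D) (hm : 0 ≤ m) (hδ : Continuous δ) (t : ℝ)
    (y : ι → ℝ) : 0 < vnum m δ a F (fun _ _ => 1) t y := by
  have h := (hF.fam a y).nrm_pos hm hδ t 0
  rw [← Vale.Agent.P157.Parisi.Full.Deriv.num_one] at h
  exact h

lemma VFam.grow (hF : VFam L F P Q D) (a : ι) (t : ℝ) (y : ι → ℝ) (s : ℝ) :
    |F t (y + Pi.single a s)| ≤ |F t y| + L * |s| := by
  simpa [line] using (hF.fam a y).grow t s

/-- The weights near a point are dominated by an exponential. -/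
lemma VFam.locBound (hF : VFam L F P Q D) (hm : 0 ≤ m) (hδ : Continuous δ) (a : ι) (t₀ : ℝ)
    (y₀ : ι → ℝ) :
    ∃ K c : ℝ, 0 ≤ K ∧ ∀ᶠ p : ℝ × (ι → ℝ) in 𝓝 (t₀, y₀), ∀ g,
      Real.exp (m * F p.1 (p.2 + Pi.single a (Real.sqrt (δ p.1) * g))) ≤
        K * Real.exp (c * |g|) := by
  set S := Real.sqrt (δ t₀) + 1
  set U := |F t₀ y₀| + 1
  refine ⟨Real.exp (m * U), m * L * S, (Real.exp_pos _).le, ?_⟩
  have e1 : ∀ᶠ p : ℝ × (ι → ℝ) in 𝓝 (t₀, y₀), Real.sqrt (δ p.1) < S :=
    ((Real.continuous_sqrt.comp (hδ.comp continuous_fst)).tendsto (t₀, y₀)).eventually_lt_const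
      (lt_add_one _)
  have e2 : ∀ᶠ p : ℝ × (ι → ℝ) in 𝓝 (t₀, y₀), |F p.1 p.2| < U :=
    ((continuous_abs.comp hF.c0).tendsto (t₀, y₀)).eventually_lt_const (lt_add_one _)
  filter_upwards [e1, e2] with p h1 h2 g
  rw [← Real.exp_add]
  refine Real.exp_le_exp.2 ?_
  have hy : |Real.sqrt (δ p.1) * g| ≤ S * |g| := by
    rw [abs_mul, abs_of_nonneg (Real.sqrt_nonneg _)]
    exact mul_le_mul_of_nonneg_right h1.le (abs_nonneg _)
  have := mul_le_mul_of_nonneg_left ((le_abs_self _).trans ((hF.grow a p.1 p.2 _).trans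
    (add_le_add h2.le (mul_le_mul_of_nonneg_left hy hF.nn)))) hm
  exact this.trans_eq (by ring)

lemma VFam.cont_integrand (hF : VFam L F P Q D) (a : ι) (m t : ℝ) (y : ι → ℝ) (s : ℝ)
    (hc : Continuous (h t)) :
    Continuous fun g : ℝ =>
      Real.exp (m * F t (y + Pi.single a (s * g))) * h t (y + Pi.single a (s * g)) := by
  have hs : Continuous fun g : ℝ => y + Pi.single (M := fun _ => ℝ) a (s * g) :=
    (continuous_shift a).comp (continuous_const.prodMk (by fun_prop : Continuous fun g : ℝ => s * g))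
  exact (((hF.c0.uncurry_left t).comp hs).const_mul m).rexp.mul (hc.comp hs)

lemma VFam.aesm_integrand (hF : VFam L F P Q D) (a : ι) (m t : ℝ) (y : ι → ℝ) (s : ℝ)
    (hc : Continuous (h t)) :
    AEStronglyMeasurable (fun g : ℝ =>
      Real.exp (m * F t (y + Pi.single a (s * g))) * h t (y + Pi.single a (s * g)))
      (gaussianReal 0 1) :=
  (hF.cont_integrand a m t y s hc).aestronglyMeasurable

lemma abs_mul_weight {K c g u v : ℝ} (hv : |v| ≤ B) (hw : Real.exp u ≤ K * Real.exp (c * |g|)) :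
    |Real.exp u * v| ≤ B * K * Real.exp (c * |g|) := by
  rw [abs_mul, abs_of_pos (Real.exp_pos _), mul_assoc, mul_comm B]
  exact mul_le_mul hw hv (abs_nonneg _) ((Real.exp_pos _).le.trans hw)

lemma VFam.integrable_vnum (hF : VFam L F P Q D) (hm : 0 ≤ m) (hδ : Continuous δ) (a : ι) (t : ℝ)
    (y : ι → ℝ) (hc : Continuous (h t)) (hb : ∀ z, |h t z| ≤ B) :
    Integrable (fun g => Real.exp (m * F t (y + Pi.single a (Real.sqrt (δ t) * g))) *
      h t (y + Pi.single a (Real.sqrt (δ t) * g))) (gaussianReal 0 1) := by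
  obtain ⟨K, c, -, hw⟩ := hF.locBound hm hδ a t y
  exact ((Vale.Agent.P157.Parisi.Site.integrable_exp_abs c).const_mul (B * K)).mono'
    (hF.cont_integrand a m t y _ hc).aestronglyMeasurable
    (Eventually.of_forall fun g => abs_mul_weight (hb _) (hw.self_of_nhds g))

lemma VFam.continuousAt_vnum (hF : VFam L F P Q D) (hm : 0 ≤ m) (hδ : Continuous δ) (a : ι)
    {U : Set ℝ} (hU : IsOpen U) (hc : ContinuousOn (Function.uncurry h) (U ×ˢ univ))
    (hb : ∀ t ∈ U, ∀ y, |h t y| ≤ B) {t : ℝ} (ht : t ∈ U) (y : ι → ℝ) :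
    ContinuousAt (Function.uncurry (vnum m δ a F h)) (t, y) := by
  obtain ⟨K, c, -, hw⟩ := hF.locBound hm hδ a t y
  have hUp : ∀ᶠ p : ℝ × (ι → ℝ) in 𝓝 (t, y), p.1 ∈ U :=
    (continuous_fst.tendsto (t, y)).eventually (hU.mem_nhds ht)
  have hht : ∀ s ∈ U, Continuous (h s) := fun s hs =>
    hc.comp_continuous (continuous_const.prodMk continuous_id) fun z => ⟨hs, mem_univ z⟩
  have key : ContinuousAt (fun p : ℝ × (ι → ℝ) =>
      ∫ g, Real.exp (m * F p.1 (p.2 + Pi.single a (Real.sqrt (δ p.1) * g))) *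
        h p.1 (p.2 + Pi.single a (Real.sqrt (δ p.1) * g)) ∂gaussianReal 0 1) (t, y) := by
    refine continuousAt_of_dominated (bound := fun g => B * K * Real.exp (c * |g|)) ?_ ?_
      ((Vale.Agent.P157.Parisi.Site.integrable_exp_abs c).const_mul _)
      (Eventually.of_forall fun g => ?_)
    · filter_upwards [hUp] with p hp
      exact (hF.cont_integrand a m p.1 p.2 _ (hht _ hp)).aestronglyMeasurable
    · filter_upwards [hUp, hw] with p hp hpw
      exact Eventually.of_forall fun g => abs_mul_weight (hb _ hp _) (hpw g)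
    · set γ : ℝ × (ι → ℝ) → ℝ × (ι → ℝ) :=
        fun p => (p.1, p.2 + Pi.single a (Real.sqrt (δ p.1) * g))
      have hγ : Continuous γ := continuous_fst.prodMk ((continuous_shift a).comp
        (continuous_snd.prodMk
          ((Real.continuous_sqrt.comp (hδ.comp continuous_fst)).mul continuous_const)))
      have h2 : ContinuousAt (fun p => Function.uncurry h (γ p)) (t, y) :=
        (hc.continuousAt ((hU.prod isOpen_univ).mem_nhds ⟨ht, mem_univ _⟩)).comp (f := γ)
          hγ.continuousAt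
      exact ((continuous_const.mul (hF.c0.comp hγ)).rexp.continuousAt).mul h2
  refine key.congr (Eventually.of_forall fun p => ?_)
  exact (vnum_eq m δ a F h p.1 p.2).symm

lemma VFam.continuous_vnum (hF : VFam L F P Q D) (hm : 0 ≤ m) (hδ : Continuous δ) (a : ι)
    (hc : Continuous (Function.uncurry h)) (hb : ∀ t y, |h t y| ≤ B) :
    Continuous (Function.uncurry (vnum m δ a F h)) :=
  continuous_iff_continuousAt.2 fun p =>
    hF.continuousAt_vnum hm hδ a isOpen_univ hc.continuousOn (fun t _ => hb t) (mem_univ p.1) p.2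

lemma VFam.continuous_vtl (hF : VFam L F P Q D) (hm : 0 ≤ m) (hδ : Continuous δ) (a : ι)
    (hc : Continuous (Function.uncurry h)) (hb : ∀ t y, |h t y| ≤ B) :
    Continuous (Function.uncurry (vtl m δ a F h)) := by
  have := (hF.continuous_vnum hm hδ a hc hb).div
    (hF.continuous_vnum hm hδ a (h := fun _ _ => 1) continuous_const (B := 1) fun _ _ => by simp)
    fun p => (hF.vnum_one_pos hm hδ p.1 p.2).ne'
  exact this.congr fun p => (vtl_eq m δ a F h p.1 p.2).symm

lemma VFam.abs_vtl_le (hF : VFam L F P Q D) (hm : 0 ≤ m) (hδ : Continuous δ) (a : ι) (t : ℝ)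
    (y : ι → ℝ) (hc : Continuous (h t)) (hb : ∀ z, |h t z| ≤ B) :
    |vtl m δ a F h t y| ≤ B :=
  (hF.fam a y).abs_tl_le hm hδ t 0
    (hc.comp ((continuous_shift a).comp (continuous_const.prodMk continuous_id))) fun z => hb _

/-- The mean of one step differentiated along a coordinate. -/
lemma VFam.hasDerivAt_vnum (hF : VFam L F P Q D) (hm : 0 ≤ m) (hδ : Continuous δ) (a e : ι)
    (t : ℝ) (y : ι → ℝ) (x : ℝ) (hd : ∀ z u, HasDerivAt (line e z h t) (line e z h1 t u) u)
    (hc : Continuous (h t)) (hc1 : Continuous (h1 t)) {B₁ : ℝ}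
    (hb : ∀ z, |h t z| ≤ B) (hb1 : ∀ z, |h1 t z| ≤ B₁) :
    HasDerivAt (fun s => vnum m δ a F h t (y + Pi.single e s))
      (vnum m δ a F (fun r z => h1 r z + m * P e r z * h r z) t (y + Pi.single e x)) x := by
  set w : ℝ → (ι → ℝ) → ℝ := fun r z => h1 r z + m * P e r z * h r z
  have hwc : Continuous (w t) := hc1.add ((((hF.c1 e).uncurry_left t).const_mul m).mul hc)
  have hwb : ∀ z, |w t z| ≤ B₁ + m * L * B := fun z => by
    refine (abs_add_le _ _).trans (add_le_add (hb1 z) ?_)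
    rw [abs_mul, abs_mul, abs_of_nonneg hm]
    exact mul_le_mul (mul_le_mul_of_nonneg_left (hF.b1 e t z) hm) (hb z) (abs_nonneg _)
      (mul_nonneg hm hF.nn)
  obtain ⟨K, c, -, hw⟩ := hF.locBound hm hδ a t (y + Pi.single e x)
  have hs : ∀ᶠ s in 𝓝 x, ∀ g,
      Real.exp (m * F t (y + Pi.single e s + Pi.single a (Real.sqrt (δ t) * g))) ≤
        K * Real.exp (c * |g|) :=
    (((continuous_const (y := t)).prodMk
      ((continuous_shift e).comp (continuous_const.prodMk continuous_id))).tendsto x).eventually hw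
  suffices H : HasDerivAt (fun s => ∫ g, Real.exp (m * F t (y + Pi.single e s +
      Pi.single a (Real.sqrt (δ t) * g))) * h t (y + Pi.single e s +
      Pi.single a (Real.sqrt (δ t) * g)) ∂gaussianReal 0 1)
      (∫ g, Real.exp (m * F t (y + Pi.single e x + Pi.single a (Real.sqrt (δ t) * g))) *
        w t (y + Pi.single e x + Pi.single a (Real.sqrt (δ t) * g)) ∂gaussianReal 0 1) x by
    rw [vnum_eq]
    exact H.congr_of_eventuallyEq (Eventually.of_forall fun s => vnum_eq m δ a F h t _)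
  have hint := hF.integrable_vnum hm hδ a t (y + Pi.single e x) hc hb
  set U : Set ℝ := {s | ∀ g, Real.exp (m * F t (y + Pi.single e s +
      Pi.single a (Real.sqrt (δ t) * g))) ≤ K * Real.exp (c * |g|)}
  have hU : U ∈ 𝓝 x := hs
  have hbd : ∀ᵐ g ∂gaussianReal 0 1, ∀ s ∈ U,
      ‖Real.exp (m * F t (y + Pi.single e s + Pi.single a (Real.sqrt (δ t) * g))) *
        w t (y + Pi.single e s + Pi.single a (Real.sqrt (δ t) * g))‖ ≤
        (B₁ + m * L * B) * K * Real.exp (c * |g|) :=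
    Eventually.of_forall fun g s hsg => abs_mul_weight (hwb _) (hsg g)
  have hdd : ∀ᵐ g ∂gaussianReal 0 1, ∀ s ∈ U, HasDerivAt
      (fun u => Real.exp (m * F t (y + Pi.single e u + Pi.single a (Real.sqrt (δ t) * g))) *
        h t (y + Pi.single e u + Pi.single a (Real.sqrt (δ t) * g)))
      (Real.exp (m * F t (y + Pi.single e s + Pi.single a (Real.sqrt (δ t) * g))) *
        w t (y + Pi.single e s + Pi.single a (Real.sqrt (δ t) * g))) s := by
    refine Eventually.of_forall fun g s _ => ?_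
    have key : ∀ u : ℝ, y + Pi.single e u + Pi.single a (Real.sqrt (δ t) * g) =
        y + Pi.single a (Real.sqrt (δ t) * g) + Pi.single e u := fun u => add_right_comm _ _ _
    have e1 := ((hF.d1 e t (y + Pi.single a (Real.sqrt (δ t) * g)) s).const_mul m).exp.mul
      (hd (y + Pi.single a (Real.sqrt (δ t) * g)) s)
    refine (e1.congr_of_eventuallyEq (Eventually.of_forall fun u => ?_)).congr_deriv ?_
    · simp only [line, key u, Pi.mul_apply]
    · simp only [line, key s, w]; ring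
  have hm1 := fun s : ℝ =>
    VFam.aesm_integrand (h := h) hF a m t (y + Pi.single e s) (Real.sqrt (δ t)) hc
  have hm2 := VFam.aesm_integrand (h := w) hF a m t (y + Pi.single e x) (Real.sqrt (δ t)) hwc
  exact (hasDerivAt_integral_of_dominated_loc_of_deriv_le hU (Eventually.of_forall hm1) hint hm2
    hbd ((Vale.Agent.P157.Parisi.Site.integrable_exp_abs c).const_mul _) hdd).2

lemma VFam.vnum_add (hF : VFam L F P Q D) (hm : 0 ≤ m) (hδ : Continuous δ) (a : ι) (t : ℝ)
    (y : ι → ℝ) {u v : ℝ → (ι → ℝ) → ℝ} {B' : ℝ} (hu : Continuous (u t))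
    (hub : ∀ z, |u t z| ≤ B) (hv : Continuous (v t)) (hvb : ∀ z, |v t z| ≤ B') (c : ℝ) :
    vnum m δ a F (fun r z => u r z + c * v r z) t y =
      vnum m δ a F u t y + c * vnum m δ a F v t y := by
  simp only [vnum_eq]
  rw [← integral_const_mul, ← integral_add (hF.integrable_vnum hm hδ a t y hu hub)
    ((hF.integrable_vnum hm hδ a t y hv hvb).const_mul c)]
  congr 1; funext g; ring

lemma VFam.vtl_add (hF : VFam L F P Q D) (hm : 0 ≤ m) (hδ : Continuous δ) (a : ι) (t : ℝ)
    (y : ι → ℝ) {u v : ℝ → (ι → ℝ) → ℝ} {B' : ℝ} (hu : Continuous (u t))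
    (hub : ∀ z, |u t z| ≤ B) (hv : Continuous (v t)) (hvb : ∀ z, |v t z| ≤ B') (c : ℝ) :
    vtl m δ a F (fun r z => u r z + c * v r z) t y =
      vtl m δ a F u t y + c * vtl m δ a F v t y := by
  rw [vtl_eq, vtl_eq, vtl_eq, hF.vnum_add hm hδ a t y hu hub hv hvb, add_div, mul_div_assoc]

lemma vtl_const (hF : VFam L F P Q D) (hm : 0 ≤ m) (hδ : Continuous δ) (a : ι) (t : ℝ)
    (y : ι → ℝ) (c : ℝ) : vtl m δ a F (fun _ _ => c) t y = c := by
  have h : vnum m δ a F (fun _ _ => c) t y = c * vnum m δ a F (fun _ _ => 1) t y := by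
    simp only [vnum_eq, ← integral_const_mul, mul_one]
    congr 1; funext g; ring
  rw [vtl_eq, h, mul_div_assoc, div_self (hF.vnum_one_pos hm hδ t y).ne', mul_one]

lemma VFam.vtl_mono (hF : VFam L F P Q D) (hm : 0 ≤ m) (hδ : Continuous δ) (a : ι) (t : ℝ)
    (y : ι → ℝ) {u v : ℝ → (ι → ℝ) → ℝ} {B' : ℝ} (hu : Continuous (u t))
    (hub : ∀ z, |u t z| ≤ B) (hv : Continuous (v t)) (hvb : ∀ z, |v t z| ≤ B')
    (hle : ∀ z, u t z ≤ v t z) : vtl m δ a F u t y ≤ vtl m δ a F v t y := by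
  rw [vtl_eq, vtl_eq]
  refine div_le_div_of_nonneg_right ?_ (hF.vnum_one_pos hm hδ t y).le
  simp only [vnum_eq]
  exact integral_mono (hF.integrable_vnum hm hδ a t y hu hub)
    (hF.integrable_vnum hm hδ a t y hv hvb)
    fun g => mul_le_mul_of_nonneg_left (hle _) (Real.exp_pos _).le

/-- The second derivative after one step. -/
def vQ (m : ℝ) (δ : ℝ → ℝ) (a : ι) (F : ℝ → (ι → ℝ) → ℝ) (P Q : ι → ℝ → (ι → ℝ) → ℝ) (e : ι)
    (t : ℝ) (y : ι → ℝ) : ℝ :=
  vtl m δ a F (fun r z => Q e r z + m * P e r z ^ 2) t y - m * vtl m δ a F (P e) t y ^ 2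

/-- The time derivative after one step. -/
def vD (m d : ℝ) (δ : ℝ → ℝ) (a : ι) (F : ℝ → (ι → ℝ) → ℝ) (P Q : ι → ℝ → (ι → ℝ) → ℝ)
    (D : ℝ → (ι → ℝ) → ℝ) (t : ℝ) (y : ι → ℝ) : ℝ :=
  vtl m δ a F (fun r z => D r z + d / 2 * (Q a r z + m * P a r z ^ 2)) t y

/-- One step keeps the class and gives the derivatives. -/
theorem VFam.step (hF : VFam L F P Q D) (hm : 0 < m) (hi : Inc δ d) (a : ι) :
    ∃ L', VFam L' (vstep m δ a F) (fun e => vtl m δ a F (P e)) (vQ m δ a F P Q)
      (vD m d δ a F P Q D) := by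
  have hm0 := hm.le
  have hL := hF.nn
  set R : ι → ℝ → (ι → ℝ) → ℝ := fun e r z => Q e r z + m * P e r z ^ 2 with hR
  have hRc : ∀ e, Continuous (Function.uncurry (R e)) := fun e =>
    (hF.c2 e).add (continuous_const.mul ((hF.c1 e).pow 2))
  have hRb : ∀ e t y, |R e t y| ≤ L + m * L ^ 2 := fun e t y => by
    refine (abs_add_le _ _).trans (add_le_add (hF.b2 e t y) ?_)
    rw [abs_mul, abs_of_pos hm, abs_pow]
    exact mul_le_mul_of_nonneg_left (pow_le_pow_left₀ (abs_nonneg _) (hF.b1 e t y) 2) hm0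
  set E : ℝ → (ι → ℝ) → ℝ := fun r z => D r z + d / 2 * R a r z
  have hEc : ContinuousOn (Function.uncurry E) (J ×ˢ univ) :=
    hF.cD.add (continuousOn_const.mul (hRc a).continuousOn)
  have hEb : ∀ t ∈ J, ∀ y, |E t y| ≤ L + |d / 2| * (L + m * L ^ 2) := fun t ht y =>
    (abs_add_le _ _).trans (add_le_add (hF.bD t ht y)
      ((abs_mul _ _).trans_le (mul_le_mul_of_nonneg_left (hRb a t y) (abs_nonneg _))))
  have hp := fun t y => hF.vnum_one_pos (a := a) (m := m) hm0 hi.cont t y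
  have hone : ∀ (e : ι) (t : ℝ) (y : ι → ℝ) (x : ℝ), HasDerivAt (fun s => vnum m δ a F (fun _ _ => 1) t (y + Pi.single e s))
      (m * vnum m δ a F (P e) t (y + Pi.single e x)) x := fun e t y x => by
    have h := hF.hasDerivAt_vnum (h := fun _ _ => 1) (h1 := fun _ _ => 0) hm0 hi.cont a e t y x
      (fun z u => hasDerivAt_const u 1) continuous_const continuous_const (B := 1) (B₁ := 0)
      (by simp) (by simp)
    refine h.congr_deriv ?_
    simp only [vnum_eq, ← integral_const_mul]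
    congr 1; funext g; ring
  refine ⟨L + 2 * m * L ^ 2 + |d / 2| * (L + m * L ^ 2), by positivity, ?_,
    fun e => hF.continuous_vtl hm0 hi.cont a (hF.c1 e) (hF.b1 e), fun e => ?_, ?_,
    fun e t y x => ?_, fun e t y x => ?_, fun t ht y => ?_, fun e t y => ?_, fun e t y => ?_,
    fun t ht y => ?_⟩
  · have := continuous_const.mul ((hF.continuous_vnum hm0 hi.cont a (h := fun _ _ => 1)
      continuous_const (B := 1) fun _ _ => by simp).log fun p => (hp p.1 p.2).ne') (X := ℝ × (ι → ℝ))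
      (f := fun _ => 1 / m)
    exact this.congr fun p => (vstep_eq m δ a F p.1 p.2).symm
  · exact (hF.continuous_vtl hm0 hi.cont a (hRc e) (hRb e)).sub
      (continuous_const.mul ((hF.continuous_vtl hm0 hi.cont a (hF.c1 e) (hF.b1 e)).pow 2))
  · intro p hp'
    have := (hF.continuousAt_vnum hm0 hi.cont a isOpen_Ioo hEc hEb hp'.1 p.2).div
      (hF.continuous_vnum hm0 hi.cont a (h := fun _ _ => 1) continuous_const (B := 1)
        fun _ _ => by simp).continuousAt (hp p.1 p.2).ne'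
    exact (this.congr (Eventually.of_forall fun q =>
      (vtl_eq m δ a F E q.1 q.2).symm)).continuousWithinAt
  · have h := ((hone e t y x).log (hp t _).ne').const_mul (1 / m)
    refine (h.congr_of_eventuallyEq (Eventually.of_forall fun s => vstep_eq m δ a F t _)).congr_deriv ?_
    simp only [line, vtl_eq]
    field_simp
  · have h := hF.hasDerivAt_vnum (h := P e) (h1 := Q e) hm0 hi.cont a e t y x
      (fun z u => hF.d2 e t z u) ((hF.c1 e).uncurry_left t) ((hF.c2 e).uncurry_left t) (hF.b1 e t)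
      (hF.b2 e t)
    refine ((h.div (hone e t y x) (hp t _).ne').congr_of_eventuallyEq
      (Eventually.of_forall fun s => vtl_eq m δ a F (P e) t _)).congr_deriv ?_
    have e' : vnum m δ a F (fun r z => Q e r z + m * P e r z * P e r z) t (y + Pi.single e x) =
        vnum m δ a F (R e) t (y + Pi.single e x) := by
      simp only [vnum_eq, R]; congr 1; funext g; ring
    simp only [line, vQ, vtl_eq, e']
    have := (hp t (y + Pi.single e x)).ne'
    field_simp
    ring
  · obtain ⟨L', hL'⟩ := (hF.fam a y).step hm hi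
    exact hL'.dt t ht 0
  · refine (hF.abs_vtl_le hm0 hi.cont a t y ((hF.c1 e).uncurry_left t) (hF.b1 e t)).trans ?_
    have : 0 ≤ |d / 2| * (L + m * L ^ 2) := by positivity
    nlinarith [mul_nonneg hm0 (sq_nonneg L)]
  · have h1 := hF.abs_vtl_le hm0 hi.cont a t y ((hRc e).uncurry_left t) (hRb e t)
    have h2 := pow_le_pow_left₀ (abs_nonneg _)
      (hF.abs_vtl_le hm0 hi.cont a t y ((hF.c1 e).uncurry_left t) (hF.b1 e t)) 2
    rw [← abs_pow] at h2
    have h3 : |m * vtl m δ a F (P e) t y ^ 2| ≤ m * L ^ 2 := by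
      rw [abs_mul, abs_of_pos hm]; exact mul_le_mul_of_nonneg_left h2 hm0
    have : 0 ≤ |d / 2| * (L + m * L ^ 2) := by positivity
    refine (abs_sub _ _).trans ?_
    linarith
  · refine (hF.abs_vtl_le hm0 hi.cont a t y (hEc.comp_continuous
      (continuous_const.prodMk continuous_id) fun z => ⟨ht, mem_univ z⟩) (hEb t ht)).trans ?_
    nlinarith [mul_nonneg hm0 (sq_nonneg L)]

end Vale.Agent.P146.Tail.Guerra
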